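import Mathlib

/-! The divisor bound: for every positive exponent the number of divisors of a positive
integer is at most a constant times that power of the integer. -/

namespace Vale.Agent.Lib.Common.TauBound

open Filter Real

/-- The constant controlling one prime power. -/
lemma exists_prime_pow_const (ε : ℝ) (hε : 0 < ε) :
    ∃ C : ℝ, 1 ≤ C ∧ ∀ a : ℕ, ((a : ℝ) + 1) ≤ C * ((2 : ℝ) ^ ε) ^ a := by
  have h2 : (1 : ℝ) < (2 : ℝ) ^ ε := Real.one_lt_rpow (by norm_num) hε
  -- a + 1 is eventually dominated by the geometric sequence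
  have ht : Tendsto (fun a : ℕ => ((a : ℝ) + 1) / ((2 : ℝ) ^ ε) ^ a) atTop (nhds 0) := by
    have h1 : Tendsto (fun a : ℕ => (a : ℝ) / ((2 : ℝ) ^ ε) ^ a) atTop (nhds 0) := by
      have := tendsto_pow_const_div_const_pow_of_one_lt 1 h2
      simpa using this
    have h3 : Tendsto (fun a : ℕ => (1 : ℝ) / ((2 : ℝ) ^ ε) ^ a) atTop (nhds 0) := by
      have := (tendsto_pow_atTop_atTop_of_one_lt h2)
      exact Tendsto.div_atTop tendsto_const_nhds this
    have := h1.add h3
    simp only [add_zero] at this
    refine this.congr (fun a => ?_)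
    rw [add_div]
  have hb : ∃ B : ℝ, ∀ a : ℕ, ((a : ℝ) + 1) / ((2 : ℝ) ^ ε) ^ a ≤ B := by
    obtain ⟨B, hB⟩ := ht.bddAbove_range
    exact ⟨B, fun a => hB ⟨a, rfl⟩⟩
  obtain ⟨B, hB⟩ := hb
  refine ⟨max B 1, le_max_right _ _, fun a => ?_⟩
  have hpos : 0 < ((2 : ℝ) ^ ε) ^ a := by positivity
  have := hB a
  rw [div_le_iff₀ hpos] at this
  calc ((a : ℝ) + 1) ≤ B * ((2 : ℝ) ^ ε) ^ a := this
    _ ≤ max B 1 * ((2 : ℝ) ^ ε) ^ a := by
        exact mul_le_mul_of_nonneg_right (le_max_left _ _) hpos.le

/-- The divisor bound, for natural arguments (with `0` giving `0 ≤ C * 0 ^ ε`). -/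
theorem exists_card_divisors_le (ε : ℝ) (hε : 0 < ε) :
    ∃ C : ℝ, 1 ≤ C ∧ ∀ n : ℕ, 1 ≤ n → ((n.divisors.card : ℕ) : ℝ) ≤ C * (n : ℝ) ^ ε := by
  classical
  obtain ⟨C1, hC1, hC1a⟩ := exists_prime_pow_const ε hε
  -- primes at least P0 have p ^ ε at least 2
  obtain ⟨P0, hP0⟩ : ∃ P0 : ℕ, (2 : ℝ) ^ (1 / ε) ≤ (P0 : ℝ) := exists_nat_ge _
  let g : ℕ → ℕ := fun n => (n.primeFactors ∩ Finset.range (P0 + 1)).card
  have key : ∀ n : ℕ, 0 < n → ((n.divisors.card : ℕ) : ℝ) ≤ C1 ^ (g n) * (n : ℝ) ^ ε := by
    intro n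
    induction n using Nat.recOnPosPrimePosCoprime with
    | prime_pow p a hp ha =>
      intro _
      rw [Nat.divisors_prime_pow hp, Finset.card_map, Finset.card_range]
      have hgv : g (p ^ a) = if p ≤ P0 then 1 else 0 := by
        simp only [g]
        rw [Nat.primeFactors_prime_pow (by omega) hp]
        by_cases h : p ≤ P0
        · rw [if_pos h, Finset.inter_eq_left.mpr]
          · simp
          · intro x hx
            simp only [Finset.mem_singleton] at hx
            simp only [Finset.mem_range]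
            omega
        · rw [if_neg h]
          rw [Finset.card_eq_zero]
          ext x
          simp only [Finset.mem_inter, Finset.mem_singleton, Finset.mem_range, Finset.notMem_empty,
            iff_false, not_and]
          intro hx
          omega
      have hp1 : (1 : ℝ) < (p : ℝ) := by exact_mod_cast hp.one_lt
      have hp2 : (2 : ℝ) ≤ (p : ℝ) := by exact_mod_cast hp.two_le
      have hpow : ((p : ℝ) ^ a) ^ ε = ((p : ℝ) ^ ε) ^ a := by
        rw [← Real.rpow_natCast, ← Real.rpow_natCast, ← Real.rpow_mul (by positivity),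
          ← Real.rpow_mul (by positivity), mul_comm]
      push_cast
      rw [hpow]
      by_cases h : p ≤ P0
      · rw [hgv, if_pos h, pow_one]
        have h2 : ((2 : ℝ) ^ ε) ^ a ≤ ((p : ℝ) ^ ε) ^ a := by
          apply pow_le_pow_left₀ (by positivity)
          exact Real.rpow_le_rpow (by norm_num) hp2 hε.le
        calc ((a : ℝ) + 1) ≤ C1 * ((2 : ℝ) ^ ε) ^ a := hC1a a
          _ ≤ C1 * ((p : ℝ) ^ ε) ^ a := by
              exact mul_le_mul_of_nonneg_left h2 (by linarith)
      · rw [hgv, if_neg h, pow_zero, one_mul]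
        -- p ^ ε is at least 2
        have hpP : (P0 : ℝ) ≤ (p : ℝ) := by
          have : P0 ≤ p := by omega
          exact_mod_cast this
        have h2p : (2 : ℝ) ≤ (p : ℝ) ^ ε := by
          calc (2 : ℝ) = ((2 : ℝ) ^ (1 / ε)) ^ ε := by
                rw [← Real.rpow_mul (by norm_num), one_div, inv_mul_cancel₀ hε.ne', Real.rpow_one]
            _ ≤ (p : ℝ) ^ ε := by
                apply Real.rpow_le_rpow (by positivity) (hP0.trans hpP) hε.le
        have h3 : (2 : ℝ) ^ a ≤ ((p : ℝ) ^ ε) ^ a := pow_le_pow_left₀ (by norm_num) h2p a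
        have h4 : ((a : ℝ) + 1) ≤ (2 : ℝ) ^ a := by
          have := Nat.lt_two_pow_self (n := a)
          have h5 : a + 1 ≤ 2 ^ a := this
          exact_mod_cast h5
        linarith
    | zero => intro h; omega
    | one =>
      intro _
      simp [g]
    | coprime a b ha hb hab iha ihb =>
      intro _
      have ha0 : 0 < a := by omega
      have hb0 : 0 < b := by omega
      rw [hab.card_divisors_mul]
      have hgmul : g (a * b) = g a + g b := by
        simp only [g]
        rw [hab.primeFactors_mul, Finset.union_inter_distrib_right, Finset.card_union_of_disjoint]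
        have hd := hab.disjoint_primeFactors
        exact Finset.disjoint_of_subset_left Finset.inter_subset_left
          (Finset.disjoint_of_subset_right Finset.inter_subset_left hd)
      rw [hgmul, pow_add]
      push_cast
      rw [Real.mul_rpow (by positivity) (by positivity)]
      have h1 := iha ha0
      have h2 := ihb hb0
      calc ((a.divisors.card : ℝ)) * (b.divisors.card : ℝ)
          ≤ (C1 ^ g a * (a : ℝ) ^ ε) * (C1 ^ g b * (b : ℝ) ^ ε) :=
            mul_le_mul h1 h2 (by positivity) (by positivity)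
        _ = _ := by ring
  refine ⟨C1 ^ (P0 + 1), one_le_pow₀ hC1, fun n hn => ?_⟩
  have hk := key n hn
  have hg : g n ≤ P0 + 1 := by
    simp only [g]
    calc _ ≤ (Finset.range (P0 + 1)).card := Finset.card_le_card Finset.inter_subset_right
      _ = P0 + 1 := Finset.card_range _
  calc ((n.divisors.card : ℕ) : ℝ) ≤ C1 ^ (g n) * (n : ℝ) ^ ε := hk
    _ ≤ C1 ^ (P0 + 1) * (n : ℝ) ^ ε := by
        apply mul_le_mul_of_nonneg_right (pow_le_pow_right₀ hC1 hg) (by positivity)

end Vale.Agent.Lib.Common.TauBound
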